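import Vale.Agent.P248.Cmp.Det

/-! P248, comparison principle for two log-homogeneous potentials on a pair of open cones
(helper541's note 11145 (3), pairs version; helper978). -/

set_option linter.all false

open Matrix Filter Topology Set

namespace Vale.Agent.P248.Cmp

variable {N : ℕ}

/-- the symmetric second difference of `f` at `y` in direction `b` is `q` -/
def SD (f : (Fin N → ℝ) → ℝ) (y b : Fin N → ℝ) (q : ℝ) : Prop :=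
  Tendsto (fun t : ℝ => (f (y + t • b) + f (y - t • b) - 2 * f y) / t ^ 2) (𝓝[≠] 0) (𝓝 q)

theorem log_sd {p q r t : ℝ} (hp : 0 < p) (h1 : 0 < p + t * q + t ^ 2 * r)
    (h2 : 0 < p - t * q + t ^ 2 * r) :
    Real.log (p + t * q + t ^ 2 * r) + Real.log (p - t * q + t ^ 2 * r) - 2 * Real.log p ≤
      t ^ 2 * (2 * r / p) + t ^ 4 * (r ^ 2 / p ^ 2) := by
  have h3 : Real.log (p + t * q + t ^ 2 * r) + Real.log (p - t * q + t ^ 2 * r) - 2 * Real.log p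
      = Real.log ((p + t * q + t ^ 2 * r) * (p - t * q + t ^ 2 * r) / p ^ 2) := by
    rw [Real.log_div (mul_pos h1 h2).ne' (pow_pos hp 2).ne', Real.log_mul h1.ne' h2.ne',
      Real.log_pow]
    push_cast
    ring
  have h4 : 0 < (p + t * q + t ^ 2 * r) * (p - t * q + t ^ 2 * r) / p ^ 2 := by positivity
  rw [h3]
  refine le_trans (Real.log_le_sub_one_of_pos h4) ?_
  have h5 : (p + t * q + t ^ 2 * r) * (p - t * q + t ^ 2 * r) / p ^ 2 - 1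
      = t ^ 2 * (2 * r / p) + t ^ 4 * (r ^ 2 / p ^ 2) - t ^ 2 * q ^ 2 / p ^ 2 := by
    field_simp
    ring
  rw [h5]
  have : 0 ≤ t ^ 2 * q ^ 2 / p ^ 2 := by positivity
  linarith

/-- the penalised function -/
noncomputable def Fe (u g : (Fin N → ℝ) → ℝ) (x1 y1 : Fin N → ℝ) (η : ℝ) (x y : Fin N → ℝ) : ℝ :=
  (u y + g x + N * Real.log (x ⬝ᵥ y)) + η * (u y + N * Real.log (x1 ⬝ᵥ y)) +
    η * (g x + N * Real.log (x ⬝ᵥ y1))

theorem dot_line (x a y b : Fin N → ℝ) (t : ℝ) :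
    (x + t • a) ⬝ᵥ (y + t • b) = x ⬝ᵥ y + t * (a ⬝ᵥ y + x ⬝ᵥ b) + t ^ 2 * (a ⬝ᵥ b) := by
  rw [add_dotProduct, dotProduct_add, dotProduct_add, smul_dotProduct, smul_dotProduct,
    dotProduct_smul, dotProduct_smul]
  simp only [smul_eq_mul]
  ring

theorem dot_line' (x a y b : Fin N → ℝ) (t : ℝ) :
    (x - t • a) ⬝ᵥ (y - t • b) = x ⬝ᵥ y - t * (a ⬝ᵥ y + x ⬝ᵥ b) + t ^ 2 * (a ⬝ᵥ b) := by
  have := dot_line x a y b (-t)
  rw [neg_smul, neg_smul, ← sub_eq_add_neg, ← sub_eq_add_neg] at this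
  rw [this]
  ring

theorem ev_mem {C : Set (Fin N → ℝ)} (hC : IsOpen C) {x a : Fin N → ℝ} (hx : x ∈ C) :
    ∀ᶠ t : ℝ in 𝓝[≠] 0, x + t • a ∈ C ∧ x - t • a ∈ C := by
  have h1 : Tendsto (fun t : ℝ => x + t • a) (𝓝 0) (𝓝 x) := by
    have : Continuous (fun t : ℝ => x + t • a) := by fun_prop
    have h := this.tendsto 0
    simpa using h
  have h2 : Tendsto (fun t : ℝ => x - t • a) (𝓝 0) (𝓝 x) := by
    have : Continuous (fun t : ℝ => x - t • a) := by fun_prop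
    have h := this.tendsto 0
    simpa using h
  exact ((h1.eventually (hC.mem_nhds hx)).and (h2.eventually (hC.mem_nhds hx))).filter_mono
    nhdsWithin_le_nhds

/-- second variation at a minimiser -/
theorem second_var {C C' : Set (Fin N → ℝ)} (hC : IsOpen C) (hC' : IsOpen C')
    (hpos : ∀ x ∈ C, ∀ y ∈ C', 0 < x ⬝ᵥ y) {u g : (Fin N → ℝ) → ℝ} {x1 y1 x0 y0 : Fin N → ℝ}
    (hx1 : x1 ∈ C) (hy1 : y1 ∈ C') (hx0 : x0 ∈ C) (hy0 : y0 ∈ C') (hN : 0 < N)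
    (h0 : x0 ⬝ᵥ y0 = N) {η : ℝ} (hη : 0 ≤ η)
    (hmin : ∀ x ∈ C, ∀ y ∈ C', Fe u g x1 y1 η x0 y0 ≤ Fe u g x1 y1 η x y)
    {a b : Fin N → ℝ} {p q : ℝ} (hp : SD u y0 b p) (hq : SD g x0 a q) :
    0 ≤ (1 + η) * (p + q) + 2 * (a ⬝ᵥ b) := by
  have hNr : (0 : ℝ) < N := by exact_mod_cast hN
  have hlim : Tendsto (fun t : ℝ => (1 + η) * (((u (y0 + t • b) + u (y0 - t • b) - 2 * u y0) / t ^ 2)
      + ((g (x0 + t • a) + g (x0 - t • a) - 2 * g x0) / t ^ 2)) + 2 * (a ⬝ᵥ b)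
      + t ^ 2 * ((a ⬝ᵥ b) ^ 2 / N)) (𝓝[≠] 0)
      (𝓝 ((1 + η) * (p + q) + 2 * (a ⬝ᵥ b) + 0 ^ 2 * ((a ⬝ᵥ b) ^ 2 / N))) := by
    refine Tendsto.add (Tendsto.add (Tendsto.const_mul _ (Tendsto.add hp hq)) tendsto_const_nhds) ?_
    have : Continuous (fun t : ℝ => t ^ 2 * ((a ⬝ᵥ b) ^ 2 / N)) := by fun_prop
    exact (this.tendsto 0).mono_left nhdsWithin_le_nhds
  have hres := ge_of_tendsto hlim (b := 0) ?_
  · simpa using hres
  · filter_upwards [ev_mem hC (a := a) hx0, ev_mem hC' (a := b) hy0, self_mem_nhdsWithin] with t hx hy ht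
    have ht0 : t ≠ 0 := ht
    have ht2 : 0 < t ^ 2 := by positivity
    have e1 := hmin _ hx.1 _ hy.1
    have e2 := hmin _ hx.2 _ hy.2
    have p1 := hpos _ hx.1 _ hy.1
    have p2 := hpos _ hx.2 _ hy.2
    have p3 := hpos _ hx1 _ hy.1
    have p4 := hpos _ hx1 _ hy.2
    have p5 := hpos _ hx.1 _ hy1
    have p6 := hpos _ hx.2 _ hy1
    have q3 := hpos _ hx1 _ hy0
    have q5 := hpos _ hx0 _ hy1
    have d3 : x1 ⬝ᵥ (y0 + t • b) = x1 ⬝ᵥ y0 + t * (x1 ⬝ᵥ b) + t ^ 2 * 0 := by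
      rw [dotProduct_add, dotProduct_smul, smul_eq_mul]; ring
    have d4 : x1 ⬝ᵥ (y0 - t • b) = x1 ⬝ᵥ y0 - t * (x1 ⬝ᵥ b) + t ^ 2 * 0 := by
      rw [dotProduct_sub, dotProduct_smul, smul_eq_mul]; ring
    have d5 : (x0 + t • a) ⬝ᵥ y1 = x0 ⬝ᵥ y1 + t * (a ⬝ᵥ y1) + t ^ 2 * 0 := by
      rw [add_dotProduct, smul_dotProduct, smul_eq_mul]; ring
    have d6 : (x0 - t • a) ⬝ᵥ y1 = x0 ⬝ᵥ y1 - t * (a ⬝ᵥ y1) + t ^ 2 * 0 := by
      rw [sub_dotProduct, smul_dotProduct, smul_eq_mul]; ring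
    rw [dot_line, h0] at p1
    rw [dot_line', h0] at p2
    rw [d3] at p3
    rw [d4] at p4
    rw [d5] at p5
    rw [d6] at p6
    have l1 := log_sd hNr p1 p2
    have l2 := log_sd q3 p3 p4
    have l3 := log_sd q5 p5 p6
    simp only [Fe] at e1 e2
    rw [dot_line, h0, d3, d5] at e1
    rw [dot_line', h0, d4, d6] at e2
    have l1' := mul_le_mul_of_nonneg_left l1 hNr.le
    have l2' := mul_le_mul_of_nonneg_left l2 (mul_nonneg hη hNr.le)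
    have l3' := mul_le_mul_of_nonneg_left l3 (mul_nonneg hη hNr.le)
    have s1 : (N : ℝ) * (t ^ 2 * (2 * (a ⬝ᵥ b) / N) + t ^ 4 * ((a ⬝ᵥ b) ^ 2 / (N : ℝ) ^ 2))
        = t ^ 2 * (2 * (a ⬝ᵥ b) + t ^ 2 * ((a ⬝ᵥ b) ^ 2 / N)) := by
      field_simp
    have s2 : η * N * (t ^ 2 * (2 * 0 / x1 ⬝ᵥ y0) + t ^ 4 * (0 ^ 2 / (x1 ⬝ᵥ y0) ^ 2)) = 0 := by
      simp
    have s3 : η * N * (t ^ 2 * (2 * 0 / x0 ⬝ᵥ y1) + t ^ 4 * (0 ^ 2 / (x0 ⬝ᵥ y1) ^ 2)) = 0 := by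
      simp
    rw [s1] at l1'
    rw [s2] at l2'
    rw [s3] at l3'
    have hfin : 0 ≤ (1 + η) * ((u (y0 + t • b) + u (y0 - t • b) - 2 * u y0)
        + (g (x0 + t • a) + g (x0 - t • a) - 2 * g x0))
        + t ^ 2 * (2 * (a ⬝ᵥ b) + t ^ 2 * ((a ⬝ᵥ b) ^ 2 / N)) := by
      nlinarith
    have hdiv := div_nonneg hfin ht2.le
    have e : ((1 + η) * ((u (y0 + t • b) + u (y0 - t • b) - 2 * u y0)
        + (g (x0 + t • a) + g (x0 - t • a) - 2 * g x0))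
        + t ^ 2 * (2 * (a ⬝ᵥ b) + t ^ 2 * ((a ⬝ᵥ b) ^ 2 / N))) / t ^ 2
        = (1 + η) * (((u (y0 + t • b) + u (y0 - t • b) - 2 * u y0) / t ^ 2)
      + ((g (x0 + t • a) + g (x0 - t • a) - 2 * g x0) / t ^ 2)) + 2 * (a ⬝ᵥ b)
      + t ^ 2 * ((a ⬝ᵥ b) ^ 2 / N) := by
      field_simp
      ring
    rw [e] at hdiv
    exact hdiv

end Vale.Agent.P248.Cmp
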