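import Vale.Agent.P248.Cmp.Abs

/-! P248, comparison principle: existence of the minimiser of the penalised function and conclusion
(helper978). -/

set_option linter.all false

open Matrix Filter Topology Set

namespace Vale.Agent.P248.Cmp

variable {N : ℕ}

/-- a pair of open cones in duality with two log-homogeneous potentials -/
structure Dat (C C' : Set (Fin N → ℝ)) (u g : (Fin N → ℝ) → ℝ)
    (P Q : (Fin N → ℝ) → Matrix (Fin N) (Fin N) ℝ) (D : ℝ) : Prop where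
  Npos : 0 < N
  opC : IsOpen C
  opC' : IsOpen C'
  smC : ∀ x ∈ C, ∀ t : ℝ, 0 < t → t • x ∈ C
  smC' : ∀ y ∈ C', ∀ t : ℝ, 0 < t → t • y ∈ C'
  pos : ∀ x ∈ C, ∀ y ∈ C', 0 < x ⬝ᵥ y
  contu : ContinuousOn u C'
  contg : ContinuousOn g C
  homu : ∀ y ∈ C', ∀ t : ℝ, 0 < t → u (t • y) = u y - N * Real.log t
  homg : ∀ x ∈ C, ∀ t : ℝ, 0 < t → g (t • x) = g x - N * Real.log t
  Ppos : ∀ y ∈ C', (P y).PosDef
  Qpos : ∀ x ∈ C, (Q x).PosDef
  sdu : ∀ y ∈ C', ∀ b, SD u y b (b ⬝ᵥ P y *ᵥ b)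
  sdg : ∀ x ∈ C, ∀ a, SD g x a (a ⬝ᵥ Q x *ᵥ a)
  Dpos : 0 < D
  detu : ∀ y ∈ C', (P y).det ≤ D * Real.exp (2 * u y)
  detg : ∀ x ∈ C, (Q x).det ≤ D * Real.exp (2 * g x)

variable {C C' : Set (Fin N → ℝ)} {u g : (Fin N → ℝ) → ℝ}
  {P Q : (Fin N → ℝ) → Matrix (Fin N) (Fin N) ℝ} {D : ℝ}

theorem Dat.ne_zero (h : Dat C C' u g P Q D) {x y : Fin N → ℝ} (hx : x ∈ C) (hy : y ∈ C') :
    x ≠ 0 ∧ y ≠ 0 := by
  have := h.pos x hx y hy
  constructor
  · rintro rfl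
    simp at this
  · rintro rfl
    simp at this

theorem Dat.Fe_hom (h : Dat C C' u g P Q D) {x1 y1 x y : Fin N → ℝ} (hx1 : x1 ∈ C) (hy1 : y1 ∈ C')
    (hx : x ∈ C) (hy : y ∈ C') {η s t : ℝ} (hs : 0 < s) (ht : 0 < t) :
    Fe u g x1 y1 η (s • x) (t • y) = Fe u g x1 y1 η x y := by
  simp only [Fe]
  rw [h.homu y hy t ht, h.homg x hx s hs, smul_dotProduct, smul_dotProduct, dotProduct_smul,
    dotProduct_smul]
  simp only [smul_eq_mul]
  rw [Real.log_mul hs.ne' (mul_pos ht (h.pos x hx y hy)).ne', Real.log_mul ht.ne' (h.pos x hx y hy).ne',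
    Real.log_mul ht.ne' (h.pos x1 hx1 y hy).ne', Real.log_mul hs.ne' (h.pos x hx y1 hy1).ne']
  ring

theorem Dat.contF (h : Dat C C' u g P Q D) {x1 y1 : Fin N → ℝ} (hx1 : x1 ∈ C) (hy1 : y1 ∈ C') (η : ℝ) :
    ContinuousOn (fun z : (Fin N → ℝ) × (Fin N → ℝ) => Fe u g x1 y1 η z.1 z.2) (C ×ˢ C') := by
  have e1 : ContinuousOn (fun z : (Fin N → ℝ) × (Fin N → ℝ) => u z.2) (C ×ˢ C') :=
    h.contu.comp continuous_snd.continuousOn fun z hz => hz.2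
  have e2 : ContinuousOn (fun z : (Fin N → ℝ) × (Fin N → ℝ) => g z.1) (C ×ˢ C') :=
    h.contg.comp continuous_fst.continuousOn fun z hz => hz.1
  have d1 : Continuous (fun z : (Fin N → ℝ) × (Fin N → ℝ) => z.1 ⬝ᵥ z.2) := by
    unfold dotProduct
    fun_prop
  have d2 : Continuous (fun z : (Fin N → ℝ) × (Fin N → ℝ) => x1 ⬝ᵥ z.2) := by
    unfold dotProduct
    fun_prop
  have d3 : Continuous (fun z : (Fin N → ℝ) × (Fin N → ℝ) => z.1 ⬝ᵥ y1) := by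
    unfold dotProduct
    fun_prop
  have l1 : ContinuousOn (fun z : (Fin N → ℝ) × (Fin N → ℝ) => Real.log (z.1 ⬝ᵥ z.2)) (C ×ˢ C') :=
    d1.continuousOn.log fun z hz => (h.pos z.1 hz.1 z.2 hz.2).ne'
  have l2 : ContinuousOn (fun z : (Fin N → ℝ) × (Fin N → ℝ) => Real.log (x1 ⬝ᵥ z.2)) (C ×ˢ C') :=
    d2.continuousOn.log fun z hz => (h.pos x1 hx1 z.2 hz.2).ne'
  have l3 : ContinuousOn (fun z : (Fin N → ℝ) × (Fin N → ℝ) => Real.log (z.1 ⬝ᵥ y1)) (C ×ˢ C') :=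
    d3.continuousOn.log fun z hz => (h.pos z.1 hz.1 y1 hy1).ne'
  exact (((e1.add e2).add (continuousOn_const.mul l1)).add
    (continuousOn_const.mul (e1.add (continuousOn_const.mul l2)))).add
    (continuousOn_const.mul (e2.add (continuousOn_const.mul l3)))

/-- the value at a minimiser -/
theorem Dat.at_min (h : Dat C C' u g P Q D) {x1 y1 x0 y0 : Fin N → ℝ} (hx1 : x1 ∈ C) (hy1 : y1 ∈ C')
    (hx0 : x0 ∈ C) (hy0 : y0 ∈ C') {η : ℝ} (hη : 0 ≤ η)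
    (hmin : ∀ x ∈ C, ∀ y ∈ C', Fe u g x1 y1 η x0 y0 ≤ Fe u g x1 y1 η x y) :
    N * Real.log N - Real.log D - N * Real.log (1 + η) ≤ u y0 + g x0 + N * Real.log (x0 ⬝ᵥ y0) := by
  have hNr : (0 : ℝ) < N := by exact_mod_cast h.Npos
  have hp0 := h.pos x0 hx0 y0 hy0
  set s : ℝ := N / (x0 ⬝ᵥ y0) with hs
  have hs0 : 0 < s := div_pos hNr hp0
  have hy : s • y0 ∈ C' := h.smC' y0 hy0 s hs0
  have hN0 : x0 ⬝ᵥ (s • y0) = N := by
    rw [dotProduct_smul, smul_eq_mul, hs]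
    field_simp
  have hmin' : ∀ x ∈ C, ∀ y ∈ C', Fe u g x1 y1 η x0 (s • y0) ≤ Fe u g x1 y1 η x y := by
    intro x hx y hyy
    have e := h.Fe_hom hx1 hy1 hx0 hy0 (η := η) (s := 1) (t := s) one_pos hs0
    rw [one_smul] at e
    rw [e]
    exact hmin x hx y hyy
  have hc : 0 < 1 + η := by linarith
  have hdet := one_le_det (h.Ppos _ hy) (h.Qpos _ hx0) hc (fun a b =>
    second_var h.opC h.opC' h.pos hx1 hy1 hx0 hy h.Npos hN0 hη hmin' (h.sdu _ hy b) (h.sdg _ hx0 a))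
  rw [Fintype.card_fin] at hdet
  have hdP := h.detu _ hy
  have hdQ := h.detg _ hx0
  have hPp := (h.Ppos _ hy).det_pos
  have hQp := (h.Qpos _ hx0).det_pos
  have hmul : (P (s • y0)).det * (Q x0).det ≤
      (D * Real.exp (2 * u (s • y0))) * (D * Real.exp (2 * g x0)) :=
    mul_le_mul hdP hdQ hQp.le (mul_nonneg h.Dpos.le (Real.exp_pos _).le)
  have hle : 1 ≤ (1 + η) ^ (2 * N) * ((D * Real.exp (2 * u (s • y0))) * (D * Real.exp (2 * g x0))) :=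
    hdet.trans (mul_le_mul_of_nonneg_left hmul (pow_pos hc _).le)
  have hlog := Real.log_le_log one_pos hle
  rw [Real.log_one, Real.log_mul (pow_pos hc _).ne' (by have := h.Dpos; positivity),
    Real.log_mul (by have := h.Dpos; positivity) (by have := h.Dpos; positivity),
    Real.log_mul h.Dpos.ne' (Real.exp_pos _).ne', Real.log_mul h.Dpos.ne' (Real.exp_pos _).ne',
    Real.log_exp, Real.log_exp, Real.log_pow] at hlog
  push_cast at hlog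
  rw [h.homu y0 hy0 s hs0] at hlog
  have hls : Real.log s = Real.log N - Real.log (x0 ⬝ᵥ y0) := by
    rw [hs, Real.log_div hNr.ne' hp0.ne']
  rw [hls] at hlog
  nlinarith

/-- **comparison theorem**: `N^N / D ≤ e^(u y + g x) ⟨x,y⟩^N` in logarithmic form -/
theorem Dat.main (h : Dat C C' u g P Q D) {x1 y1 : Fin N → ℝ} (hx1 : x1 ∈ C) (hy1 : y1 ∈ C')
    (prou : ∀ c : ℝ, IsCompact {y | y ∈ C' ∧ ‖y‖ = 1 ∧ u y + N * Real.log (x1 ⬝ᵥ y) ≤ c})
    (prog : ∀ c : ℝ, IsCompact {x | x ∈ C ∧ ‖x‖ = 1 ∧ g x + N * Real.log (x ⬝ᵥ y1) ≤ c})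
    {M : ℝ} (hM : ∀ x ∈ C, ∀ y ∈ C', -M ≤ u y + g x + N * Real.log (x ⬝ᵥ y))
    {xa ya : Fin N → ℝ} (hxa : xa ∈ C) (hya : ya ∈ C') :
    N * Real.log N - Real.log D ≤ u ya + g xa + N * Real.log (xa ⬝ᵥ ya) := by
  -- normalisation
  have nrm : ∀ x ∈ C, ∃ x' ∈ C, ‖x'‖ = 1 ∧ ∃ t : ℝ, 0 < t ∧ x = t • x' := by
    intro x hx
    have hx0 : x ≠ 0 := (h.ne_zero hx hy1).1
    have hn : 0 < ‖x‖ := norm_pos_iff.2 hx0
    refine ⟨‖x‖⁻¹ • x, h.smC x hx _ (inv_pos.2 hn), ?_, ‖x‖, hn, ?_⟩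
    · rw [norm_smul, norm_inv, norm_norm, inv_mul_cancel₀ hn.ne']
    · rw [smul_smul, mul_inv_cancel₀ hn.ne', one_smul]
  have nrm' : ∀ y ∈ C', ∃ y' ∈ C', ‖y'‖ = 1 ∧ ∃ t : ℝ, 0 < t ∧ y = t • y' := by
    intro x hx
    have hx0 : x ≠ 0 := (h.ne_zero hx1 hx).2
    have hn : 0 < ‖x‖ := norm_pos_iff.2 hx0
    refine ⟨‖x‖⁻¹ • x, h.smC' x hx _ (inv_pos.2 hn), ?_, ‖x‖, hn, ?_⟩
    · rw [norm_smul, norm_inv, norm_norm, inv_mul_cancel₀ hn.ne']
    · rw [smul_smul, mul_inv_cancel₀ hn.ne', one_smul]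
  obtain ⟨xh, hxh, nxh, tx, htx, rfl⟩ := nrm xa hxa
  obtain ⟨yh, hyh, nyh, ty, hty, rfl⟩ := nrm' ya hya
  -- penalties
  set α : (Fin N → ℝ) → ℝ := fun y => u y + N * Real.log (x1 ⬝ᵥ y) with hα
  set β : (Fin N → ℝ) → ℝ := fun x => g x + N * Real.log (x ⬝ᵥ y1) with hβ
  have cα : ContinuousOn α C' := by
    have d2 : Continuous (fun z : (Fin N → ℝ) => x1 ⬝ᵥ z) := by
      unfold dotProduct
      fun_prop
    exact h.contu.add (continuousOn_const.mul (d2.continuousOn.log fun z hz => (h.pos x1 hx1 z hz).ne'))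
  have cβ : ContinuousOn β C := by
    have d2 : Continuous (fun z : (Fin N → ℝ) => z ⬝ᵥ y1) := by
      unfold dotProduct
      fun_prop
    exact h.contg.add (continuousOn_const.mul (d2.continuousOn.log fun z hz => (h.pos z hz y1 hy1).ne'))
  have αhom : ∀ y ∈ C', ∀ t : ℝ, 0 < t → α (t • y) = α y := by
    intro y hy t ht
    simp only [hα]
    rw [h.homu y hy t ht, dotProduct_smul, smul_eq_mul, Real.log_mul ht.ne' (h.pos x1 hx1 y hy).ne']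
    ring
  have βhom : ∀ x ∈ C, ∀ t : ℝ, 0 < t → β (t • x) = β x := by
    intro y hy t ht
    simp only [hβ]
    rw [h.homg y hy t ht, smul_dotProduct, smul_eq_mul, Real.log_mul ht.ne' (h.pos y hy y1 hy1).ne']
    ring
  obtain ⟨αm, hαm⟩ : ∃ m, ∀ y ∈ C', m ≤ α y := by
    obtain ⟨z, hz, hz2⟩ := (prou (α yh)).exists_isMinOn ⟨yh, hyh, nyh, le_rfl⟩
      (cα.mono fun y hy => hy.1)
    refine ⟨α z, fun y hy => ?_⟩
    obtain ⟨y', hy', ny', t, ht, rfl⟩ := nrm' y hy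
    rw [αhom y' hy' t ht]
    by_cases hc : α y' ≤ α yh
    · exact hz2 ⟨hy', ny', hc⟩
    · have h1 : α z ≤ α yh := hz.2.2
      linarith
  obtain ⟨βm, hβm⟩ : ∃ m, ∀ x ∈ C, m ≤ β x := by
    obtain ⟨z, hz, hz2⟩ := (prog (β xh)).exists_isMinOn ⟨xh, hxh, nxh, le_rfl⟩
      (cβ.mono fun y hy => hy.1)
    refine ⟨β z, fun y hy => ?_⟩
    obtain ⟨y', hy', ny', t, ht, rfl⟩ := nrm y hy
    rw [βhom y' hy' t ht]
    by_cases hc : β y' ≤ β xh
    · exact hz2 ⟨hy', ny', hc⟩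
    · have h1 : β z ≤ β xh := hz.2.2
      linarith
  -- the bound for each positive penalty
  have key : ∀ η : ℝ, 0 < η → N * Real.log N - Real.log D - N * Real.log (1 + η) + η * (αm + βm)
      ≤ (u yh + g xh + N * Real.log (xh ⬝ᵥ yh)) + η * (α yh + β xh) := by
    intro η hη
    set T : ℝ := Fe u g x1 y1 η xh yh with hT
    set A : ℝ := (T + M - η * βm) / η with hA
    set B : ℝ := (T + M - η * αm) / η with hB
    set K : Set ((Fin N → ℝ) × (Fin N → ℝ)) :=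
      {x | x ∈ C ∧ ‖x‖ = 1 ∧ β x ≤ B} ×ˢ {y | y ∈ C' ∧ ‖y‖ = 1 ∧ α y ≤ A} with hK
    have hKc : IsCompact K := (prog B).prod (prou A)
    have hin : ∀ x ∈ C, ‖x‖ = 1 → ∀ y ∈ C', ‖y‖ = 1 → Fe u g x1 y1 η x y ≤ T → (x, y) ∈ K := by
      intro x hx nx y hy ny hle
      have e : Fe u g x1 y1 η x y = (u y + g x + N * Real.log (x ⬝ᵥ y)) + η * α y + η * β x := rfl
      have h1 := hM x hx y hy
      have h2 := hαm y hy
      have h3 := hβm x hx
      rw [e] at hle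
      refine ⟨⟨hx, nx, ?_⟩, ⟨hy, ny, ?_⟩⟩
      · rw [hB, le_div_iff₀ hη]
        nlinarith
      · rw [hA, le_div_iff₀ hη]
        nlinarith
    have hne : K.Nonempty := ⟨(xh, yh), hin xh hxh nxh yh hyh nyh le_rfl⟩
    obtain ⟨⟨x0, y0⟩, hz, hz2⟩ := hKc.exists_isMinOn hne
      ((h.contF hx1 hy1 η).mono fun z hz => ⟨hz.1.1, hz.2.1⟩)
    have hx0 : x0 ∈ C := hz.1.1
    have hy0 : y0 ∈ C' := hz.2.1
    have hminT : Fe u g x1 y1 η x0 y0 ≤ T := hz2 (hin xh hxh nxh yh hyh nyh le_rfl)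
    have hmin : ∀ x ∈ C, ∀ y ∈ C', Fe u g x1 y1 η x0 y0 ≤ Fe u g x1 y1 η x y := by
      intro x hx y hy
      obtain ⟨x', hx', nx', s, hs, rfl⟩ := nrm x hx
      obtain ⟨y', hy', ny', t, ht, rfl⟩ := nrm' y hy
      rw [h.Fe_hom hx1 hy1 hx' hy' hs ht]
      by_cases hc : Fe u g x1 y1 η x' y' ≤ T
      · exact hz2 (hin x' hx' nx' y' hy' ny' hc)
      · exact hminT.trans (not_le.1 hc).le
    have hval := h.at_min hx1 hy1 hx0 hy0 hη.le hmin
    have e0 : Fe u g x1 y1 η x0 y0 = (u y0 + g x0 + N * Real.log (x0 ⬝ᵥ y0)) + η * α y0 + η * β x0 := rfl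
    have eT : T = (u yh + g xh + N * Real.log (xh ⬝ᵥ yh)) + η * α yh + η * β xh := rfl
    have h2 := hαm y0 hy0
    have h3 := hβm x0 hx0
    rw [e0, eT] at hminT
    nlinarith
  -- the limit
  have hhom : u (ty • yh) + g (tx • xh) + N * Real.log ((tx • xh) ⬝ᵥ (ty • yh))
      = u yh + g xh + N * Real.log (xh ⬝ᵥ yh) := by
    rw [h.homu yh hyh ty hty, h.homg xh hxh tx htx, smul_dotProduct, dotProduct_smul, smul_eq_mul,
      smul_eq_mul, Real.log_mul htx.ne' (mul_pos hty (h.pos xh hxh yh hyh)).ne',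
      Real.log_mul hty.ne' (h.pos xh hxh yh hyh).ne']
    ring
  rw [hhom]
  have l1 : Tendsto (fun η : ℝ => N * Real.log N - Real.log D - N * Real.log (1 + η) + η * (αm + βm))
      (𝓝[>] 0) (𝓝 (N * Real.log N - Real.log D)) := by
    have c1 : ContinuousAt (fun η : ℝ => N * Real.log N - Real.log D - N * Real.log (1 + η)
        + η * (αm + βm)) 0 := by
      have c2 : ContinuousAt (fun η : ℝ => Real.log (1 + η)) 0 := by
        refine ContinuousAt.log (by fun_prop) (by norm_num)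
      fun_prop
    have := c1.tendsto.mono_left (nhdsWithin_le_nhds (s := Ioi (0 : ℝ)))
    simpa using this
  have l2 : Tendsto (fun η : ℝ => (u yh + g xh + N * Real.log (xh ⬝ᵥ yh)) + η * (α yh + β xh))
      (𝓝[>] 0) (𝓝 (u yh + g xh + N * Real.log (xh ⬝ᵥ yh))) := by
    have c1 : ContinuousAt (fun η : ℝ => (u yh + g xh + N * Real.log (xh ⬝ᵥ yh))
        + η * (α yh + β xh)) 0 := by
      fun_prop
    have := c1.tendsto.mono_left (nhdsWithin_le_nhds (s := Ioi (0 : ℝ)))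
    simpa using this
  exact le_of_tendsto_of_tendsto l1 l2 (by
    filter_upwards [self_mem_nhdsWithin] with η hη
    exact key η hη)

end Vale.Agent.P248.Cmp
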